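import Vale.Agent.P195.Gap.Ext

/-!
Dimension count for resolutions with gaps: the degree-preserving homomorphisms between the
syzygies at the gaps give a triangular matrix of bounded rank.
-/

universe u

open DirectSum

namespace Vale.Agent.P195.Gap

variable {k : Type*} [Field k] {T : Type u} [Ring T] [Algebra k T] [Module.Finite k T]
  (𝒜 : ℤ → Submodule k T) [GradedAlgebra 𝒜]
  {ι : Type*} {e : ι → T} (he₀ : ∀ s, e s ∈ 𝒜 0) (he : ∀ s, e s * e s = e s)
  {n : ℕ → ℕ} {t : (i : ℕ) → Fin (n i) → ι} (deg : (i : ℕ) → Fin (n i) → ℤ)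
  (d : (i : ℕ) → rows e (t (i + 1)) →ₗ[T] rows e (t i))

instance rows_finite_field {m : ℕ} (s : Fin m → ι) : Module.Finite k (rows e s) :=
  Module.Finite.of_injective ((rows e s).subtype.restrictScalars k) Subtype.val_injective

/-- The homogeneous elements of degree `D` fixed by `e τ` in the image of `d b`. -/
def V (b : ℕ) (D : ℤ) (τ : ι) : Submodule k (rows e (t b)) where
  carrier := {y | y ∈ LinearMap.range (d b) ∧ IsHom 𝒜 (deg b) D y ∧ e τ • y = y}
  add_mem' {x y} hx hy := ⟨add_mem hx.1 hy.1, fun l => by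
    simp only [Submodule.coe_add, Pi.add_apply]; exact add_mem (hx.2.1 l) (hy.2.1 l),
    by rw [smul_add, hx.2.2, hy.2.2]⟩
  zero_mem' := ⟨zero_mem _, fun l => by simp, smul_zero _⟩
  smul_mem' c y hy := ⟨by
    rw [← IsScalarTower.algebraMap_smul T c y]; exact Submodule.smul_mem _ _ hy.1, fun l => by
    simp only [Submodule.coe_smul_of_tower, Pi.smul_apply]
    exact Submodule.smul_mem _ c (hy.2.1 l), by
    rw [← IsScalarTower.algebraMap_smul T c y, ← mul_smul, ← Algebra.commutes, mul_smul, hy.2.2]⟩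

variable (hhom : ∀ i l, IsHom 𝒜 (deg i) (deg (i + 1) l) (d i (gen he (t (i + 1)) l)))

/-- The degree `σ` maps from the `j`-th projective to the image of `d b`. -/
abbrev C (b j : ℕ) (σ : ℤ) := (l : Fin (n j)) → V 𝒜 deg d b (deg j l + σ) (t j l)

include hhom in
theorem diff_mem (b j : ℕ) (σ : ℤ) (f : C 𝒜 deg d b j σ) (l : Fin (n (j + 1))) :
    lc (fun m => (f m : rows e (t b))) (d j (gen he (t (j + 1)) l))
      ∈ V 𝒜 deg d b (deg (j + 1) l + σ) (t (j + 1) l) := by
  refine ⟨?_, ?_, ?_⟩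
  · rw [lc_apply]
    exact Submodule.sum_mem _ fun m _ => Submodule.smul_mem _ _ (f m).2.1
  · rw [lc_apply]
    refine IsHom.sum_smul 𝒜 (deg b) (d := fun m => deg j m + σ) (fun m _ => ?_)
      (fun m _ => (f m).2.2.1)
    rw [show deg (j + 1) l + σ - (deg j m + σ) = deg (j + 1) l - deg j m by ring]
    exact hhom j l m
  · rw [← map_smul, ← map_smul, smul_gen]

/-- Composition with the differential. -/
def diff (b j : ℕ) (σ : ℤ) : C 𝒜 deg d b j σ →ₗ[k] C 𝒜 deg d b (j + 1) σ where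
  toFun f l := ⟨_, diff_mem 𝒜 he deg d hhom b j σ f l⟩
  map_add' f g := by
    funext l; apply Subtype.ext
    simp [lc_apply, Finset.sum_add_distrib]
  map_smul' c f := by
    funext l; apply Subtype.ext
    simp only [lc_apply, Pi.smul_apply, SetLike.val_smul, RingHom.id_apply, Finset.smul_sum]
    exact Finset.sum_congr rfl fun m _ => smul_comm _ c _

theorem diff_apply (b j : ℕ) (σ : ℤ) (f : C 𝒜 deg d b j σ) (l : Fin (n (j + 1))) :
    (diff 𝒜 he deg d hhom b j σ f l : rows e (t b))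
      = lc (fun m => (f m : rows e (t b))) (d j (gen he (t (j + 1)) l)) := rfl

variable (hd : ∀ i, Function.Exact (d (i + 1)) (d i))

include hd in
theorem range_le_ker (b j : ℕ) (σ : ℤ) : LinearMap.range (diff 𝒜 he deg d hhom b j σ)
    ≤ LinearMap.ker (diff 𝒜 he deg d hhom b (j + 1) σ) := by
  rintro _ ⟨f, rfl⟩
  rw [LinearMap.mem_ker]
  funext l; apply Subtype.ext
  rw [diff_apply]
  have : lc (fun m => ((diff 𝒜 he deg d hhom b j σ f) m : rows e (t b)))
      = (lc fun m => (f m : rows e (t b))).comp (d j) := by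
    refine LinearMap.ext fun x => ?_
    rw [map_eq_sum he ((lc fun m => (f m : rows e (t b))).comp (d j)) x, lc_apply]
    rfl
  rw [this, LinearMap.comp_apply, (hd j).apply_apply_eq_zero, map_zero]
  rfl

omit [Module.Finite k T] [GradedAlgebra 𝒜] in
include he hd in
/-- A map out of the image of a differential extends to the previous projective. -/
theorem exists_ext {N : Type u} [AddCommGroup N] [Module T N] (i : ℕ)
    (hev : EV T (LinearMap.range (d i)) N 1) (f : Fin (n (i + 1 + 1)) → N)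
    (h : ∀ l, lc f (d (i + 1 + 1) (gen he (t (i + 1 + 1 + 1)) l)) = 0) :
    ∃ G : rows e (t (i + 1)) →ₗ[T] N, ∀ x, G (d (i + 1) x) = lc f x := by
  have hker : LinearMap.ker (d (i + 1)) ≤ LinearMap.ker (lc f) := by
    intro x hx
    obtain ⟨y, rfl⟩ := (hd (i + 1) x).1 hx
    show ((lc f).comp (d (i + 1 + 1))) y = 0
    rw [map_eq_sum he ((lc f).comp (d (i + 1 + 1))) y]
    refine Finset.sum_eq_zero fun l _ => ?_
    rw [LinearMap.comp_apply, h l, smul_zero]
  let g : LinearMap.range (d (i + 1)) →ₗ[T] N :=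
    (LinearMap.ker (d (i + 1))).liftQ (lc f) hker
      ∘ₗ (d (i + 1)).quotKerEquivRange.symm.toLinearMap
  have := rows_projective (t := t (i + 1)) he
  obtain ⟨G, hG⟩ := ev_extend (Submodule.injective_subtype _) (d i).surjective_rangeRestrict
    (exact_range d hd i) hev g
  refine ⟨G, fun x => ?_⟩
  have h2 : G (d (i + 1) x) = g ((d (i + 1)).rangeRestrict x) :=
    LinearMap.congr_fun hG ((d (i + 1)).rangeRestrict x)
  have h3 : (d (i + 1)).quotKerEquivRange.symm ((d (i + 1)).rangeRestrict x)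
      = Submodule.Quotient.mk x := by
    rw [LinearEquiv.symm_apply_eq]; rfl
  rw [h2]
  simp [g, h3]

omit [Module.Finite k T] in
include hhom in
theorem comp_mem_range (b : ℕ) (D : ℤ) {y : rows e (t b)} (hy : y ∈ LinearMap.range (d b)) :
    comp 𝒜 he₀ (deg b) D y ∈ LinearMap.range (d b) := by
  obtain ⟨x, rfl⟩ := LinearMap.mem_range.1 hy
  rw [map_eq_sum he (d b) x, comp_sum]
  refine Submodule.sum_mem _ fun l _ => ?_
  rw [comp_smul_right 𝒜 he₀ (deg b) _ (hhom b l)]
  exact Submodule.smul_mem _ _ (LinearMap.mem_range_self _ _)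

include he₀ hd in
theorem ker_le_range (b i : ℕ) (σ : ℤ)
    (hev : EV T (LinearMap.range (d i)) (LinearMap.range (d b)) 1) :
    LinearMap.ker (diff 𝒜 he deg d hhom b (i + 1 + 1) σ)
      ≤ LinearMap.range (diff 𝒜 he deg d hhom b (i + 1) σ) := by
  intro f hf
  obtain ⟨G, hG⟩ := exists_ext he d hd i hev
    (fun m => (⟨f m, (f m).2.1⟩ : LinearMap.range (d b))) (fun l => by
      apply Subtype.ext
      rw [lc_apply, Submodule.coe_sum]
      exact congrArg Subtype.val (congrFun (LinearMap.mem_ker.1 hf) l))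
  let y : Fin (n (i + 1)) → rows e (t b) := fun m => G (gen he (t (i + 1)) m)
  have hy : ∀ m, e (t (i + 1) m) • y m = y m := fun m => by
    show e (t (i + 1) m) • (G (gen he (t (i + 1)) m) : rows e (t b)) = _
    rw [← Submodule.coe_smul, ← map_smul, smul_gen]
  have hmem : ∀ m, comp 𝒜 he₀ (deg b) (deg (i + 1) m + σ) (y m)
      ∈ V 𝒜 deg d b (deg (i + 1) m + σ) (t (i + 1) m) := fun m =>
    ⟨comp_mem_range 𝒜 he₀ he deg d hhom b _ (G (gen he (t (i + 1)) m)).2,
      comp_isHom _ _ _ _ _, by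
        conv_rhs => rw [← hy m, comp_smul_left 𝒜 he₀ (deg b) (he₀ _), sub_zero]⟩
  refine ⟨fun m => ⟨_, hmem m⟩, ?_⟩
  funext l; apply Subtype.ext
  rw [diff_apply, lc_apply]
  have key : ∀ m, (d (i + 1) (gen he (t (i + 1 + 1)) l) : Fin (n (i + 1)) → T) m
        • comp 𝒜 he₀ (deg b) (deg (i + 1) m + σ) (y m)
      = comp 𝒜 he₀ (deg b) (deg (i + 1 + 1) l + σ)
        ((d (i + 1) (gen he (t (i + 1 + 1)) l) : Fin (n (i + 1)) → T) m • y m) := by
    intro m
    rw [comp_smul_left 𝒜 he₀ (deg b) (hhom (i + 1) l m)]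
    congr 2; ring
  rw [Finset.sum_congr rfl fun m _ => key m, ← comp_sum]
  have hsum : ∑ m, (d (i + 1) (gen he (t (i + 1 + 1)) l) : Fin (n (i + 1)) → T) m • y m
      = f l := by
    have h1 := map_eq_sum he ((LinearMap.range (d b)).subtype.comp G)
      (d (i + 1) (gen he (t (i + 1 + 1)) l))
    rw [LinearMap.comp_apply, Submodule.subtype_apply, hG, lc_gen, Submodule.coe_smul,
      (f l).2.2.2] at h1
    exact h1.symm
  rw [hsum, comp_of_isHom 𝒜 he₀ (deg b) (f l).2.2.1]

theorem ker_diff_gap_ne_bot (a : ℕ) (hne : d a ≠ 0) (σ : ℤ) (hσ : σ = 0)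
    (hd : ∀ i, Function.Exact (d (i + 1)) (d i)) :
    LinearMap.ker (diff 𝒜 he deg d hhom a (a + 1) σ) ≠ ⊥ := by
  subst hσ
  have hmem : ∀ l, d a (gen he (t (a + 1)) l)
      ∈ V 𝒜 deg d a (deg (a + 1) l + 0) (t (a + 1) l) := fun l =>
    ⟨LinearMap.mem_range_self _ _, by rw [add_zero]; exact hhom a l,
      by rw [← map_smul, smul_gen]⟩
  intro h
  have h0 : (fun l => ⟨_, hmem l⟩ : C 𝒜 deg d a (a + 1) 0)
      ∈ LinearMap.ker (diff 𝒜 he deg d hhom a (a + 1) 0) := by
    rw [LinearMap.mem_ker]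
    funext l; apply Subtype.ext
    rw [diff_apply, lc_apply]
    refine ((map_eq_sum he (d a) (d (a + 1) (gen he (t (a + 1 + 1)) l))).symm.trans ?_)
    rw [(hd a).apply_apply_eq_zero]; rfl
  rw [h, Submodule.mem_bot] at h0
  refine hne (LinearMap.ext fun x => ?_)
  rw [map_eq_sum he (d a) x]
  refine Finset.sum_eq_zero fun l _ => ?_
  have : d a (gen he (t (a + 1)) l) = 0 := congrArg Subtype.val (congrFun h0 l)
  rw [this, smul_zero]

variable (L : ℕ) (hsupp : ∀ m : ℤ, m < 0 ∨ (L : ℤ) < m → 𝒜 m = ⊥)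

include he₀ hhom hsupp in
theorem V_eq_bot (b : ℕ) (D : ℤ) (τ : ι)
    (hD : ∀ l, D < deg (b + 1) l ∨ deg (b + 1) l + L < D) : V 𝒜 deg d b D τ = ⊥ := by
  rw [Submodule.eq_bot_iff]
  rintro y ⟨hy, hyh, -⟩
  obtain ⟨x, rfl⟩ := LinearMap.mem_range.1 hy
  rw [← comp_of_isHom 𝒜 he₀ (deg b) hyh, map_eq_sum he (d b) x, comp_sum]
  refine Finset.sum_eq_zero fun l _ => ?_
  rw [comp_smul_right 𝒜 he₀ (deg b) _ (hhom b l)]
  have h0 : GradedAlgebra.proj 𝒜 (D - deg (b + 1) l) ((x : Fin (n (b + 1)) → T) l) = 0 := by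
    rw [← Submodule.mem_bot k, ← hsupp (D - deg (b + 1) l) (by rcases hD l with h | h <;> omega),
      GradedAlgebra.proj_apply]
    exact SetLike.coe_mem _
  rw [h0, zero_smul]

end Vale.Agent.P195.Gap
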