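import Vale.Agent.P195.Gap.Rows

/-!
The notions used in the statement about gapped resolutions.
-/

universe u

open CategoryTheory CategoryTheory.Abelian

namespace Vale.Agent.P195.Gap

/-- The projective module `⊕_l T e_{t l}`: row vectors `x` with `x_l e_{t l} = x_l`. -/
def Proj {T : Type u} [Ring T] {ι : Type*} (e : ι → T) {n : ℕ} (t : Fin n → ι) : Type u :=
  ↥(rows e t)

instance Proj.addCommGroup {T : Type u} [Ring T] {ι : Type*} (e : ι → T) {n : ℕ}
    (t : Fin n → ι) : AddCommGroup (Proj e t) :=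
  (rows e t).addCommGroup

instance Proj.module {T : Type u} [Ring T] {ι : Type*} (e : ι → T) {n : ℕ}
    (t : Fin n → ι) : Module T (Proj e t) :=
  (rows e t).module

/-- The coordinates of an element of `Proj e t`. -/
def Proj.coord {T : Type u} [Ring T] {ι : Type*} {e : ι → T} {n : ℕ} {t : Fin n → ι}
    (x : Proj e t) : Fin n → T :=
  Subtype.val x

/-- The `l`-th standard generator `e_{t l}` of `Proj e t`. -/
def Proj.gen {T : Type u} [Ring T] {ι : Type*} {e : ι → T} {n : ℕ} (he : ∀ s, e s * e s = e s)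
    (t : Fin n → ι) (l : Fin n) : Proj e t :=
  Gap.gen he t l

/-- `f` is homogeneous for the shifts `degP`, `degQ`: the `l'`-th coordinate of the image of the
`l`-th generator lies in degree `degP l - degQ l'`. -/
def IsHomogeneous {k : Type*} [Field k] {T : Type u} [Ring T] [Algebra k T]
    (𝒜 : ℤ → Submodule k T) {ι : Type*} {e : ι → T} (he : ∀ s, e s * e s = e s)
    {p q : ℕ} {tP : Fin p → ι} {tQ : Fin q → ι} (degP : Fin p → ℤ) (degQ : Fin q → ℤ)
    (f : Proj e tP →ₗ[T] Proj e tQ) : Prop :=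
  ∀ l l', (f (Proj.gen he tP l)).coord l' ∈ 𝒜 (degP l - degQ l')

/-- `ε` and the maps `d i` form a resolution of `M`. -/
def IsResolution {T : Type u} [Ring T] {ι : Type*} {e : ι → T} {n : ℕ → ℕ}
    {t : (i : ℕ) → Fin (n i) → ι} {M : Type u} [AddCommGroup M] [Module T M]
    (d : (i : ℕ) → Proj e (t (i + 1)) →ₗ[T] Proj e (t i)) (ε : Proj e (t 0) →ₗ[T] M) : Prop :=
  Function.Surjective ε ∧ Function.Exact (d 0) ε ∧ ∀ i, Function.Exact (d (i + 1)) (d i)

/-- For some `c` and `K` there are more than `N * (c + L + 1)` steps `a`, all with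
`a + K + 2 ≤ R`, each having a degree `s` such that the degrees at step `a` are below `s`, those
at step `a + 1` lie in `[s, s + c]` and those at step `a + 1 + K` are above `s + c + L`. -/
def HasGaps {n : ℕ → ℕ} (deg : (i : ℕ) → Fin (n i) → ℤ) (L N R : ℕ) : Prop :=
  ∃ (c K : ℕ) (A : Finset ℕ), N * (c + L + 1) < A.card ∧
    ∀ a ∈ A, a + K + 2 ≤ R ∧ ∃ s : ℤ, (∀ l, deg a l < s) ∧
      (∀ l, s ≤ deg (a + 1) l ∧ deg (a + 1) l ≤ s + c) ∧ ∀ l, s + c + L < deg (a + 1 + K) l

/-- `Ext^i(M, M) = 0` and `Ext^i(M, T) = 0` for `1 ≤ i ≤ R`. -/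
def SatisfiesARUpTo {T : Type u} [Ring T] (M : ModuleCat.{u} T) (R : ℕ) : Prop :=
  ∀ i : ℕ, 1 ≤ i → i ≤ R → Subsingleton (Ext M M i) ∧ Subsingleton (Ext M (ModuleCat.of T T) i)

end Vale.Agent.P195.Gap
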