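import Mathlib

/-!
Finite direct sums `⊕ T e` of projective left ideals, as row vectors, with their grading.
-/

universe u

open DirectSum

namespace Vale.Agent.P195.Gap

variable {k : Type*} [Field k] {T : Type u} [Ring T] [Algebra k T] {ι : Type*}

theorem rows_add_mem {e : ι → T} {n : ℕ} {t : Fin n → ι} {x y : Fin n → T}
    (hx : ∀ l, x l * e (t l) = x l) (hy : ∀ l, y l * e (t l) = y l) (l : Fin n) :
    (x + y) l * e (t l) = (x + y) l := by
  simp only [Pi.add_apply, add_mul, hx l, hy l]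

theorem rows_smul_mem {e : ι → T} {n : ℕ} {t : Fin n → ι} (c : T) {x : Fin n → T}
    (hx : ∀ l, x l * e (t l) = x l) (l : Fin n) : (c • x) l * e (t l) = (c • x) l := by
  simp only [Pi.smul_apply, smul_eq_mul, mul_assoc, hx l]

theorem rows_single_mem {e : ι → T} (he : ∀ s, e s * e s = e s) {n : ℕ} (t : Fin n → ι)
    (l m : Fin n) : (Pi.single l (e (t l)) : Fin n → T) m * e (t m)
      = (Pi.single l (e (t l)) : Fin n → T) m := by
  by_cases h : m = l
  · subst h; simp [he]
  · simp [Pi.single_eq_of_ne h]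

/-- The module `⊕_l T e_{t l}` as row vectors `x` with `x_l e_{t l} = x_l`. -/
def rows (e : ι → T) {n : ℕ} (t : Fin n → ι) : Submodule T (Fin n → T) where
  carrier := {x | ∀ l, x l * e (t l) = x l}
  add_mem' := rows_add_mem
  zero_mem' _ := zero_mul _
  smul_mem' c _ hx := rows_smul_mem c hx

variable {e : ι → T} {n : ℕ} {t : Fin n → ι}

theorem mem_rows {x : Fin n → T} : x ∈ rows e t ↔ ∀ l, x l * e (t l) = x l := Iff.rfl

theorem rows_mul (x : rows e t) (l : Fin n) : (x : Fin n → T) l * e (t l) = (x : Fin n → T) l :=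
  x.2 l

/-- The `l`-th standard generator `e_{t l}` of `rows e t`. -/
def gen (he : ∀ s, e s * e s = e s) (t : Fin n → ι) (l : Fin n) : rows e t :=
  ⟨Pi.single l (e (t l)), rows_single_mem he t l⟩

variable (he : ∀ s, e s * e s = e s)

theorem smul_gen (l : Fin n) : e (t l) • gen he t l = gen he t l := by
  ext m
  by_cases h : m = l
  · subst h; simp [gen, he]
  · simp [gen, Pi.single_eq_of_ne h]

theorem eq_sum_gen (x : rows e t) : x = ∑ l, (x : Fin n → T) l • gen he t l := by
  ext m
  simp [gen, Pi.single_apply, Finset.sum_apply, rows_mul]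

theorem map_eq_sum {N : Type*} [AddCommGroup N] [Module T N] (F : rows e t →ₗ[T] N)
    (x : rows e t) : F x = ∑ l, (x : Fin n → T) l • F (gen he t l) := by
  conv_lhs => rw [eq_sum_gen he x]
  simp [map_sum]

/-- The linear map sending the `l`-th generator to `f l`. -/
def lc {N : Type*} [AddCommGroup N] [Module T N] (f : Fin n → N) : rows e t →ₗ[T] N where
  toFun x := ∑ l, (x : Fin n → T) l • f l
  map_add' x y := by simp [add_smul, Finset.sum_add_distrib]
  map_smul' c x := by simp [Finset.smul_sum, mul_smul]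

theorem lc_apply {N : Type*} [AddCommGroup N] [Module T N] (f : Fin n → N) (x : rows e t) :
    lc f x = ∑ l, (x : Fin n → T) l • f l := rfl

theorem lc_gen {N : Type*} [AddCommGroup N] [Module T N] (f : Fin n → N) (l : Fin n) :
    lc f (gen he t l) = e (t l) • f l := by
  rw [lc_apply, Finset.sum_eq_single l]
  · simp [gen]
  · intro m _ h; simp [gen, Pi.single_eq_of_ne h]
  · simp

include he in
theorem rows_projective : Module.Projective T (rows e t) := by
  let q : (Fin n → T) →ₗ[T] rows e t :=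
    { toFun := fun x => ⟨fun l => x l * e (t l), fun l => by rw [mul_assoc, he]⟩
      map_add' := fun x y => by ext l; simp [add_mul]
      map_smul' := fun c x => by ext l; simp [mul_assoc] }
  refine Module.Projective.of_split (rows e t).subtype q ?_
  ext x l
  simp [q, rows_mul]

include he in
theorem rows_finite : Module.Finite T (rows e t) := by
  let q : (Fin n → T) →ₗ[T] rows e t :=
    { toFun := fun x => ⟨fun l => x l * e (t l), fun l => by rw [mul_assoc, he]⟩
      map_add' := fun x y => by ext l; simp [add_mul]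
      map_smul' := fun c x => by ext l; simp [mul_assoc] }
  exact Module.Finite.of_surjective q fun x => ⟨(x : Fin n → T), by ext l; simp [q, rows_mul]⟩

variable (𝒜 : ℤ → Submodule k T) [GradedAlgebra 𝒜] (he₀ : ∀ s, e s ∈ 𝒜 0) (deg : Fin n → ℤ)

/-- Row vectors homogeneous of degree `D`, the `l`-th coordinate having degree shifted by
`deg l`. -/
def IsHom (D : ℤ) (y : rows e t) : Prop :=
  ∀ l, (y : Fin n → T) l ∈ 𝒜 (D - deg l)

/-- The component of degree `D`. -/
def comp (D : ℤ) (y : rows e t) : rows e t :=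
  ⟨fun l => GradedAlgebra.proj 𝒜 (D - deg l) ((y : Fin n → T) l), fun l => by
    simp only [GradedAlgebra.proj_apply]
    rw [← coe_decompose_mul_of_right_mem_zero 𝒜 (he₀ (t l)), rows_mul]⟩

theorem comp_coe (D : ℤ) (y : rows e t) (l : Fin n) :
    (comp 𝒜 he₀ deg D y : Fin n → T) l = GradedAlgebra.proj 𝒜 (D - deg l) ((y : Fin n → T) l) :=
  rfl

theorem comp_isHom (D : ℤ) (y : rows e t) : IsHom 𝒜 deg D (comp 𝒜 he₀ deg D y) := fun l => by
  rw [comp_coe, GradedAlgebra.proj_apply]; exact SetLike.coe_mem _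

theorem comp_of_isHom {D : ℤ} {y : rows e t} (h : IsHom 𝒜 deg D y) :
    comp 𝒜 he₀ deg D y = y := by
  ext l
  rw [comp_coe, GradedAlgebra.proj_apply, decompose_of_mem_same 𝒜 (h l)]

theorem comp_sum {σ : Type*} (s : Finset σ) (D : ℤ) (y : σ → rows e t) :
    comp 𝒜 he₀ deg D (∑ i ∈ s, y i) = ∑ i ∈ s, comp 𝒜 he₀ deg D (y i) := by
  ext l; simp [comp_coe, Finset.sum_apply]

theorem comp_smul_left {m : ℤ} {c : T} (hc : c ∈ 𝒜 m) (D : ℤ) (y : rows e t) :
    comp 𝒜 he₀ deg D (c • y) = c • comp 𝒜 he₀ deg (D - m) y := by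
  ext l
  simp only [comp_coe, Submodule.coe_smul, Pi.smul_apply, smul_eq_mul, GradedAlgebra.proj_apply]
  rw [show D - deg l = m + (D - m - deg l) by ring, coe_decompose_mul_add_of_left_mem 𝒜 hc]

theorem comp_smul_right (c : T) {D₀ : ℤ} {y : rows e t} (h : IsHom 𝒜 deg D₀ y) (D : ℤ) :
    comp 𝒜 he₀ deg D (c • y) = GradedAlgebra.proj 𝒜 (D - D₀) c • y := by
  ext l
  simp only [comp_coe, Submodule.coe_smul, Pi.smul_apply, smul_eq_mul, GradedAlgebra.proj_apply]
  rw [show D - deg l = (D - D₀) + (D₀ - deg l) by ring,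
    coe_decompose_mul_add_of_right_mem 𝒜 (h l)]

theorem IsHom.sum_smul {σ : Type*} {s : Finset σ} {D : ℤ} {c : σ → T} {d : σ → ℤ}
    {y : σ → rows e t} (hc : ∀ i ∈ s, c i ∈ 𝒜 (D - d i)) (hy : ∀ i ∈ s, IsHom 𝒜 deg (d i) (y i)) :
    IsHom 𝒜 deg D (∑ i ∈ s, c i • y i) := fun l => by
  simp only [Submodule.coe_sum, Finset.sum_apply, Submodule.coe_smul, Pi.smul_apply, smul_eq_mul]
  refine Submodule.sum_mem _ fun i hi => ?_
  have := SetLike.mul_mem_graded (hc i hi) (hy i hi l)
  rwa [show D - d i + (d i - deg l) = D - deg l by ring] at this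

end Vale.Agent.P195.Gap
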