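import Vale.Agent.P195.Homol
import Vale.Agent.P195.Gap.Rows

/-!
Extension groups between the syzygies in a resolution by the modules `rows e t`.
-/

universe u

namespace Vale.Agent.P195.Gap

variable {T : Type u} [Ring T] {ι : Type*} {e : ι → T} (he : ∀ s, e s * e s = e s)
  {n : ℕ → ℕ} {t : (i : ℕ) → Fin (n i) → ι} {M : Type u} [AddCommGroup M] [Module T M]
  (d : (i : ℕ) → rows e (t (i + 1)) →ₗ[T] rows e (t i)) (ε : rows e (t 0) →ₗ[T] M)
  (hε : Function.Surjective ε) (h0 : Function.Exact (d 0) ε)
  (hd : ∀ i, Function.Exact (d (i + 1)) (d i))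

include hd in
theorem exact_range (i : ℕ) :
    Function.Exact (LinearMap.range (d (i + 1))).subtype (d i).rangeRestrict := fun x => by
  rw [← Subtype.val_inj, LinearMap.rangeRestrict, LinearMap.codRestrict_apply,
    ZeroMemClass.coe_zero, hd i x]
  simp [LinearMap.mem_range]

include h0 in
theorem exact_range_zero : Function.Exact (LinearMap.range (d 0)).subtype ε := fun x => by
  rw [h0 x]
  simp [LinearMap.mem_range]

include he hε h0 hd in
theorem ev_range_left (X : Type u) [AddCommGroup X] [Module T X] :
    ∀ i j : ℕ, EV T M X (i + 1 + (j + 1)) → EV T (LinearMap.range (d i)) X (j + 1)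
  | 0, j, h => by
    have := rows_projective (t := t 0) he
    exact ev_shift (Submodule.injective_subtype _) hε (exact_range_zero d ε h0) j
      (by rwa [show j + 2 = 0 + 1 + (j + 1) by omega])
  | i + 1, j, h => by
    have := rows_projective (t := t (i + 1)) he
    exact ev_shift (Submodule.injective_subtype _) (d i).surjective_rangeRestrict
      (exact_range d hd i) j
      (ev_range_left X i (j + 1) (by rwa [show i + 1 + (j + 1 + 1) = i + 1 + 1 + (j + 1) by omega]))

include he hε h0 hd in
theorem ev_range_right (R : ℕ) (hR : ∀ i, 1 ≤ i → i ≤ R → EV T M T i)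
    (hM : ∀ i, 1 ≤ i → i ≤ R → EV T M M i) :
    ∀ b i : ℕ, i + 1 + (b + 1) ≤ R → EV T M (LinearMap.range (d b)) (i + 1 + (b + 1))
  | 0, i, hle => by
    have := rows_projective (t := t 0) he
    have := rows_finite (t := t 0) he
    exact ev_cov (Submodule.injective_subtype _) hε (exact_range_zero d ε h0) (i + 1)
      (hM _ (by omega) (by omega)) (ev_of_finite_projective _ (hR _ (by omega) hle))
  | b + 1, i, hle => by
    have := rows_projective (t := t (b + 1)) he
    have := rows_finite (t := t (b + 1)) he
    exact ev_cov (Submodule.injective_subtype _) (d b).surjective_rangeRestrict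
      (exact_range d hd b) (i + 1 + (b + 1)) (ev_range_right R hR hM b i (by omega))
      (ev_of_finite_projective _ (hR _ (by omega) hle))

include he hε h0 hd in
theorem ev_range_one (R : ℕ) (hR : ∀ i, 1 ≤ i → i ≤ R → EV T M T i)
    (hM : ∀ i, 1 ≤ i → i ≤ R → EV T M M i) {b i : ℕ} (hbi : b ≤ i) (hi : i + 2 ≤ R) :
    EV T (LinearMap.range (d i)) (LinearMap.range (d b)) 1 := by
  refine ev_range_left he d ε hε h0 hd _ i 0 ?_
  rw [show i + 1 + (0 + 1) = (i - b) + 1 + (b + 1) by omega]
  exact ev_range_right he d ε hε h0 hd R hR hM b (i - b) (by omega)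

/-- A short exact sequence with finitely generated projective kernel and no first extensions of
the quotient by the algebra splits. -/
theorem projective_of_ev {K P X : Type u} [AddCommGroup K] [Module T K] [AddCommGroup P]
    [Module T P] [AddCommGroup X] [Module T X] [Module.Projective T P] [Module.Finite T K]
    [Module.Projective T K] {j : K →ₗ[T] P} {π : P →ₗ[T] X} (hj : Function.Injective j)
    (hπ : Function.Surjective π) (hex : Function.Exact j π) (h : EV T X T 1) :
    Module.Projective T X := by
  obtain ⟨F, hF⟩ := ev_extend hj hπ hex (ev_of_finite_projective 1 h) LinearMap.id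
  have hker : LinearMap.ker π ≤ LinearMap.ker (LinearMap.id - j.comp F) := by
    intro x hx
    obtain ⟨y, rfl⟩ := (hex x).1 hx
    have := LinearMap.congr_fun hF y
    simp only [LinearMap.comp_apply, LinearMap.id_apply] at this
    simp [this]
  refine Module.Projective.of_split ((LinearMap.ker π).liftQ _ hker ∘ₗ
    (π.quotKerEquivOfSurjective hπ).symm.toLinearMap) π ?_
  refine LinearMap.ext fun x => ?_
  obtain ⟨p, rfl⟩ := hπ x
  have : (π.quotKerEquivOfSurjective hπ).symm (π p) = Submodule.Quotient.mk p := by
    rw [LinearEquiv.symm_apply_eq]; rfl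
  simp [this, hex.apply_apply_eq_zero]

include he hε h0 hd in
theorem projective_of_range (R : ℕ) (hR : ∀ i, 1 ≤ i → i ≤ R → EV T M T i) :
    ∀ i : ℕ, i + 1 ≤ R → Module.Projective T (LinearMap.range (d i)) → Module.Projective T M
  | 0, hi, h => by
    have := rows_projective (t := t 0) he
    have := rows_finite (t := t (0 + 1)) he
    exact projective_of_ev (Submodule.injective_subtype _) hε (exact_range_zero d ε h0)
      (hR 1 le_rfl hi)
  | i + 1, hi, h => by
    have := rows_projective (t := t (i + 1)) he
    have := rows_finite (t := t (i + 1 + 1)) he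
    exact projective_of_range R hR i (by omega) (projective_of_ev (Submodule.injective_subtype _)
      (d i).surjective_rangeRestrict (exact_range d hd i)
      (ev_range_left he d ε hε h0 hd T i 0 (hR _ (by omega) (by omega))))

end Vale.Agent.P195.Gap
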