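import Vale.Agent.P195.Gap.Count

/-!
Modules with gapped graded resolutions satisfy the Auslander-Reiten conjecture.
-/

universe u

namespace Vale.Agent.P195.Gap

/-- A product of two rectangular matrices cannot be triangular with nonzero diagonal once its
size exceeds the inner dimension. -/
theorem le_card_of_triangular {m : ℕ} {κ : Type*} [Fintype κ] (U : Matrix (Fin m) κ ℚ)
    (W : Matrix κ (Fin m) ℚ) (h0 : ∀ x y, y < x → (U * W) x y = 0)
    (h1 : ∀ x, (U * W) x x ≠ 0) : m ≤ Fintype.card κ := by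
  have hdet : (U * W).det ≠ 0 := by
    rw [Matrix.det_of_upperTriangular (fun x y hxy => h0 x y hxy)]
    exact Finset.prod_ne_zero_iff.2 fun x _ => h1 x
  have hrank : (U * W).rank = m := by
    rw [Matrix.rank_of_isUnit _ ((Matrix.isUnit_iff_isUnit_det _).2 (Ne.isUnit hdet)),
      Fintype.card_fin]
  exact hrank ▸ (Matrix.rank_mul_le_left U W).trans (Matrix.rank_le_card_width U)

/-- Alternating sums in an exact sequence. -/
theorem alt_sum (r : ℕ → ℚ) (N : ℕ) :
    ∑ i ∈ Finset.range N, (-1) ^ i * (r i + r (i + 1)) = r 0 - (-1) ^ N * r N := by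
  induction N with
  | zero => simp
  | succ N ih => rw [Finset.sum_range_succ, ih, pow_succ]; ring

open DirectSum Module

/-- A subspace of dimension zero of a finite-dimensional space is trivial. -/
theorem eq_bot_of_finrank {F W : Type*} [Field F] [AddCommGroup W] [Module F W] [Module.Finite F W]
    (S : Submodule F W) (h : finrank F S = 0) : S = ⊥ :=
  Submodule.finrank_eq_zero.1 h

variable {k : Type*} [Field k] {T : Type u} [Ring T] [Algebra k T] [Module.Finite k T]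
  (𝒜 : ℤ → Submodule k T) [GradedAlgebra 𝒜]
  {ι : Type*} [Fintype ι] [DecidableEq ι] {e : ι → T} (he₀ : ∀ s, e s ∈ 𝒜 0)
  (he : ∀ s, e s * e s = e s)
  {n : ℕ → ℕ} {t : (i : ℕ) → Fin (n i) → ι} (deg : (i : ℕ) → Fin (n i) → ℤ)
  (d : (i : ℕ) → rows e (t (i + 1)) →ₗ[T] rows e (t i))
  (hhom : ∀ i l, IsHom 𝒜 (deg i) (deg (i + 1) l) (d i (gen he (t (i + 1)) l)))
  (hd : ∀ i, Function.Exact (d (i + 1)) (d i))
  (L c K : ℕ) (hsupp : ∀ m : ℤ, m < 0 ∨ (L : ℤ) < m → 𝒜 m = ⊥)

/-- A gap at step `a`: all generators of the `a`-th projective have degree `< s`, those of the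
next one lie in `[s, s+c]` and `K` steps later all lie above `s+c+L`. -/
def GapAt (a : ℕ) (s : ℤ) : Prop :=
  (∀ l, deg a l < s) ∧ (∀ l, s ≤ deg (a + 1) l ∧ deg (a + 1) l ≤ s + c) ∧
    ∀ l, s + c + L < deg (a + 1 + K) l

omit [Fintype ι] [DecidableEq ι] [GradedAlgebra 𝒜] in
theorem finrank_C_eq (b j : ℕ) (σ : ℤ) :
    finrank k (C 𝒜 deg d b j σ) = ∑ l : Fin (n j), finrank k (V 𝒜 deg d b (deg j l + σ) (t j l)) := by
  have : ∀ l : Fin (n j), Module.Free k (V 𝒜 deg d b (deg j l + σ) (t j l)) := fun l =>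
    @Module.Free.of_divisionRing k (V 𝒜 deg d b (deg j l + σ) (t j l)) _ _ _
  exact Module.finrank_pi_fintype k

/-- Signed numbers of generators, by type and degree. -/
def uVec (t : (i : ℕ) → Fin (n i) → ι) (a : ℕ) (s : ℤ) (p : ι × Fin (c + L + 1)) : ℚ :=
  ∑ i ∈ Finset.range K, (-1) ^ i * ∑ l : Fin (n (a + 1 + i)),
    if t (a + 1 + i) l = p.1 ∧ deg (a + 1 + i) l - s = (p.2 : ℤ) then 1 else 0

/-- Dimensions of the homogeneous pieces of a syzygy. -/
noncomputable def wVec (b : ℕ) (s : ℤ) (p : ι × Fin (c + L + 1)) : ℚ :=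
  finrank k (V 𝒜 deg d b (s + p.2) p.1)

/-- Dimension of the space of maps. -/
noncomputable def hDim (b j : ℕ) (σ : ℤ) : ℚ :=
  finrank k (LinearMap.ker (diff 𝒜 he deg d hhom b j σ))

include he₀ he hhom hsupp in
theorem finrank_C (b : ℕ) (s s' : ℤ) (j : ℕ)
    (hb : ∀ l, s' ≤ deg (b + 1) l ∧ deg (b + 1) l ≤ s' + c) :
    (finrank k (C 𝒜 deg d b j (s' - s)) : ℚ)
      = ∑ p : ι × Fin (c + L + 1), (∑ l : Fin (n j),
          if t j l = p.1 ∧ deg j l - s = (p.2 : ℤ) then (1 : ℚ) else 0) * wVec 𝒜 deg d L c b s' p := by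
  simp_rw [Finset.sum_mul]
  rw [Finset.sum_comm, finrank_C_eq, Nat.cast_sum]
  refine Finset.sum_congr rfl fun l _ => ?_
  by_cases hr : 0 ≤ deg j l - s ∧ deg j l - s ≤ c + L
  · obtain ⟨r, hr'⟩ : ∃ r : Fin (c + L + 1), (r : ℤ) = deg j l - s :=
      ⟨⟨(deg j l - s).toNat, by omega⟩, Int.toNat_of_nonneg hr.1⟩
    rw [Finset.sum_eq_single (t j l, r)]
    · rw [if_pos ⟨rfl, hr'.symm⟩, one_mul, wVec,
        show deg j l + (s' - s) = s' + (r : ℤ) by omega]
    · rintro ⟨τ, r''⟩ _ hne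
      rw [if_neg, zero_mul]
      rintro ⟨rfl, h2⟩
      refine hne (Prod.ext rfl (Fin.ext ?_))
      dsimp only at h2 hr' ⊢; omega
    · simp
  · rw [V_eq_bot 𝒜 he₀ he deg d hhom L hsupp b _ _ (fun m => by have := hb m; omega), finrank_bot,
      Nat.cast_zero, Finset.sum_eq_zero]
    rintro ⟨τ, r⟩ _
    rw [if_neg, zero_mul]
    rintro ⟨-, h2⟩
    simp only at h2
    have := r.2
    omega

include he₀ hd hsupp in
theorem euler (a b : ℕ) (s s' : ℤ) (hba : b ≤ a) (ha : GapAt deg L c K a s)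
    (hb : GapAt deg L c K b s')
    (hev : ∀ i, b ≤ i → i < a + K + 1 → EV T (LinearMap.range (d i)) (LinearMap.range (d b)) 1) :
    ∑ p, uVec deg L c K t a s p * wVec 𝒜 deg d L c b s' p
      = hDim 𝒜 he deg d hhom b (a + 1) (s' - s) := by
  have hrec : ∀ i, i < K → (finrank k (C 𝒜 deg d b (a + 1 + i) (s' - s)) : ℚ)
      = hDim 𝒜 he deg d hhom b (a + 1 + i) (s' - s)
        + hDim 𝒜 he deg d hhom b (a + 1 + (i + 1)) (s' - s) := by
    intro i hiK
    have h1 := LinearMap.finrank_range_add_finrank_ker (K := k)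
      (V := C 𝒜 deg d b (a + 1 + i) (s' - s))
      (V₂ := C 𝒜 deg d b (a + 1 + i + 1) (s' - s)) (diff 𝒜 he deg d hhom b (a + 1 + i) (s' - s))
    have h2 : LinearMap.range (diff 𝒜 he deg d hhom b (a + 1 + i) (s' - s))
        = LinearMap.ker (diff 𝒜 he deg d hhom b (a + 1 + i + 1) (s' - s)) := by
      refine le_antisymm (range_le_ker 𝒜 he deg d hhom hd b _ _) ?_
      have := ker_le_range 𝒜 he₀ he deg d hhom hd b (a + i) (s' - s) (hev _ (by omega) (by omega))
      rw [show a + 1 + i = a + i + 1 by omega]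
      exact this
    rw [h2] at h1
    rw [hDim, hDim, ← h1, ← add_assoc, Nat.cast_add, add_comm]
  have hK : hDim 𝒜 he deg d hhom b (a + 1 + K) (s' - s) = 0 := by
    have : ∀ l, V 𝒜 deg d b (deg (a + 1 + K) l + (s' - s)) (t (a + 1 + K) l) = ⊥ := fun l =>
      V_eq_bot 𝒜 he₀ he deg d hhom L hsupp b _ _ fun m => by
        have := (hb.2.1 m).2; have := ha.2.2 l; omega
    have h0 : finrank k (C 𝒜 deg d b (a + 1 + K) (s' - s)) = 0 := by
      rw [finrank_C_eq]
      exact Finset.sum_eq_zero fun l _ => by rw [this l, finrank_bot]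
    rw [hDim, Nat.cast_eq_zero]
    exact Nat.le_zero.1 (h0 ▸ Submodule.finrank_le _)
  calc ∑ p, uVec deg L c K t a s p * wVec 𝒜 deg d L c b s' p
      = ∑ i ∈ Finset.range K, (-1) ^ i * (finrank k (C 𝒜 deg d b (a + 1 + i) (s' - s)) : ℚ) := by
        simp_rw [finrank_C 𝒜 he₀ he deg d hhom L c hsupp b s s' _ hb.2.1, uVec, Finset.sum_mul,
          Finset.mul_sum]
        rw [Finset.sum_comm]
        simp only [mul_assoc, Finset.sum_mul, Finset.mul_sum]
    _ = hDim 𝒜 he deg d hhom b (a + 1) (s' - s) := by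
        rw [Finset.sum_congr rfl fun i hi => by rw [hrec i (Finset.mem_range.1 hi)]]
        rw [alt_sum (fun i => hDim 𝒜 he deg d hhom b (a + 1 + i) (s' - s)), hK]
        simp

include he₀ hd hsupp in
theorem hDim_eq_zero (a b : ℕ) (s s' : ℤ) (hba : b < a) (ha : GapAt deg L c K a s)
    (hb : GapAt deg L c K b s')
    (hev : ∀ i, b ≤ i → i < a + K + 1 → EV T (LinearMap.range (d i)) (LinearMap.range (d b)) 1) :
    hDim 𝒜 he deg d hhom b (a + 1) (s' - s) = 0 := by
  obtain ⟨i, rfl⟩ : ∃ i, a = i + 1 := ⟨a - 1, by omega⟩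
  have hle := ker_le_range 𝒜 he₀ he deg d hhom hd b i (s' - s) (hev _ (by omega) (by omega))
  have h0 : ∀ f : C 𝒜 deg d b (i + 1) (s' - s), f = 0 := fun f => funext fun l => by
    have hl := V_eq_bot 𝒜 he₀ he deg d hhom L hsupp b (deg (i + 1) l + (s' - s)) (t (i + 1) l)
      fun m => by have := (hb.2.1 m).1; have := ha.1 l; omega
    exact Subtype.ext ((Submodule.mem_bot k).1 (hl ▸ (f l).2))
  have : LinearMap.ker (diff 𝒜 he deg d hhom b (i + 1 + 1) (s' - s)) = ⊥ := by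
    refine le_bot_iff.1 (hle.trans ?_)
    rintro _ ⟨f, rfl⟩
    rw [h0 f, map_zero]; exact zero_mem _
  rw [hDim, this, finrank_bot, Nat.cast_zero]

include hd in
theorem hDim_gap_ne_zero (a : ℕ) (hne : d a ≠ 0) (σ : ℤ) (hσ : σ = 0) :
    hDim 𝒜 he deg d hhom a (a + 1) σ ≠ 0 := by
  have hk := ker_diff_gap_ne_bot 𝒜 he deg d hhom a hne σ hσ hd
  rw [hDim, Ne, Nat.cast_eq_zero]
  intro h
  exact hk (@eq_bot_of_finrank k (C 𝒜 deg d a (a + 1) σ) _ Pi.addCommGroup _ inferInstance _ h)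

include he₀ hd hsupp in
theorem card_gaps_le {m : ℕ} (f : Fin m → ℕ) (S : Fin m → ℤ) (hf : StrictMono f)
    (hS : ∀ x, GapAt deg L c K (f x) (S x)) (hne : ∀ x, d (f x) ≠ 0)
    (hev : ∀ x y i, f y ≤ i → i < f x + K + 1 →
      EV T (LinearMap.range (d i)) (LinearMap.range (d (f y))) 1)
    (hhom' : ∀ i l, IsHom 𝒜 (deg i) (deg (i + 1) l) (d i (gen he (t (i + 1)) l))) :
    m ≤ Fintype.card (ι × Fin (c + L + 1)) := by
  let U : Matrix (Fin m) (ι × Fin (c + L + 1)) ℚ := Matrix.of fun x p =>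
    uVec deg L c K t (f x) (S x) p
  let W : Matrix (ι × Fin (c + L + 1)) (Fin m) ℚ := Matrix.of fun p y =>
    wVec 𝒜 deg d L c (f y) (S y) p
  have hent : ∀ x y : Fin m, y ≤ x → (U * W) x y
      = hDim 𝒜 he deg d hhom' (f y) (f x + 1) (S y - S x) := fun x y hxy =>
    (Matrix.mul_apply).trans (euler 𝒜 he₀ he deg d hhom' hd L c K hsupp _ _ _ _
      (hf.monotone hxy) (hS x) (hS y) (hev x y))
  refine le_card_of_triangular U W (fun x y hxy => ?_) (fun x => ?_)
  · rw [hent x y hxy.le]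
    exact hDim_eq_zero 𝒜 he₀ he deg d hhom' hd L c K hsupp _ _ _ _ (hf hxy) (hS x) (hS y)
      (hev x y)
  · rw [hent x x le_rfl]
    intro h
    exact hDim_gap_ne_zero 𝒜 he deg d hhom' hd (f x) (hne _) _ (sub_self _) h

variable {M : Type u} [AddCommGroup M] [Module T M] (ε : rows e (t 0) →ₗ[T] M)

include 𝒜 he₀ he hhom hd hsupp in
theorem projective_of_gaps (hε : Function.Surjective ε) (h0 : Function.Exact (d 0) ε) (R : ℕ)
    (A : Finset ℕ) (hcard : Fintype.card ι * (c + L + 1) < A.card)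
    (hgap : ∀ a ∈ A, a + K + 2 ≤ R ∧ ∃ s, GapAt deg L c K a s)
    (hR : ∀ i, 1 ≤ i → i ≤ R → EV T M T i) (hM : ∀ i, 1 ≤ i → i ≤ R → EV T M M i) :
    Module.Projective T M := by
  by_cases hz : ∃ a ∈ A, d a = 0
  · obtain ⟨a, haA, ha⟩ := hz
    refine projective_of_range he d ε hε h0 hd R hR a (by have := (hgap a haA).1; omega) ?_
    have : Subsingleton (LinearMap.range (d a)) := by
      rw [ha, LinearMap.range_zero]; infer_instance
    infer_instance
  exfalso
  let f : Fin A.card → ℕ := fun x => A.orderEmbOfFin rfl x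
  have hfA : ∀ x, f x ∈ A := fun x => A.orderEmbOfFin_mem rfl x
  choose S hS using fun x => (hgap (f x) (hfA x)).2
  have := card_gaps_le 𝒜 he₀ he deg d hd L c K hsupp f S
    (fun x y h => (A.orderEmbOfFin rfl).strictMono h) hS (fun x h => hz ⟨f x, hfA x, h⟩)
    (fun x y i hyi hix => ev_range_one he d ε hε h0 hd R hR hM hyi
      (by have := (hgap (f x) (hfA x)).1; omega)) hhom
  rw [Fintype.card_prod, Fintype.card_fin] at this
  omega

end Vale.Agent.P195.Gap
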